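import Mathlib
import Vale.Agent.P319.SC.QL.QIface
import Vale.Agent.P319.Ev.QLC

/-! P319, block SC, number theory, package QL2-Q: `IA2Stmt`, `IBStmt` and `QLStmt` imply
`QL2Stmt`. -/

namespace Vale.Agent.P319.SC.QL.H660

open Vale.Agent.P319.Ev Vale.Agent.P319.Ev.QLC ArithmeticFunction
open Vale.Agent.P319.Ev.IA (LL)

lemma lam_le_LL {r : ℕ} (hr : 1 ≤ r) : lam r ≤ LL r := by
  have h1 : 1 ≤ LL r := Vale.Agent.P319.Ev.IA.one_le_LL hr
  have := Real.log_le_sub_one_of_pos (by linarith : 0 < LL r)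
  unfold lam
  linarith

lemma one_le_lam {r : ℕ} (hr : 1 ≤ r) : 1 ≤ lam r := by
  have h1 : 1 ≤ LL r := Vale.Agent.P319.Ev.IA.one_le_LL hr
  have := Real.log_nonneg h1
  unfold lam
  linarith

open Classical in
lemma S1_lower' {r : ℕ} (hr : r.Prime) {k : ℕ} {δ E : ℝ} (hδ : 0 < δ) (hs : Summable (wt k δ))
    (hA : ∀ S : Finset (DirichletCharacter ℂ r), (∀ χ ∈ S, χ ≠ 1) → ∑ χ ∈ S, ‖Schi χ k δ‖ ≤ E) :
    (∑' n, wt k δ n) - 2 ^ (k + 1) - E ≤
      r.totient * ∑' n : ℕ, (if n % r = 1 then wt k δ n else 0) := by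
  have : Fact r.Prime := ⟨hr⟩
  have h := congrArg Complex.re (sum_Schi hr.two_le (k := k) (δ := δ) hs)
  rw [Complex.ofReal_re, ← Finset.add_sum_erase _ _ (Finset.mem_univ (1 : DirichletCharacter ℂ r)),
    Complex.add_re] at h
  rw [← h]
  have h1 := re_Schi_one hr hδ hs (k := k)
  have h2 : ‖∑ χ ∈ Finset.univ.erase (1 : DirichletCharacter ℂ r), Schi χ k δ‖ ≤ E :=
    (norm_sum_le _ _).trans (hA _ fun χ hχ => Finset.ne_of_mem_erase hχ)
  have h3 : -E ≤ (∑ χ ∈ Finset.univ.erase (1 : DirichletCharacter ℂ r), Schi χ k δ).re := by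
    have := Complex.abs_re_le_norm (∑ χ ∈ Finset.univ.erase (1 : DirichletCharacter ℂ r), Schi χ k δ)
    have h4 := neg_abs_le (∑ χ ∈ Finset.univ.erase (1 : DirichletCharacter ℂ r), Schi χ k δ).re
    linarith
  linarith

/-- the main inequality at a fixed `δ`, `k` -/
lemma core' {r : ℕ} (hr : r.Prime) {C CB U δ : ℝ} {k : ℕ} (hC : 1 ≤ C) (hCB : 1 ≤ CB)
    (hU0 : 0 ≤ U) (hδ : 0 < δ)
    (hδ16 : δ * (16 * CB) ≤ 1) (hkU : (k : ℝ) ≤ U * δ) (hUk : U * δ < k + 1)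
    (hm : 5 * (202 + 5 * C) * LL r ≤ ((k + 1 : ℕ) : ℝ))
    (hs : Summable (wt k δ)) (hs8 : Summable (wt k (8 * δ))) (hs7 : Summable (wt k (δ / 7)))
    (hz : |(∑' n, wt k δ n) - δ ^ (-((k : ℝ) + 1))| ≤ CB ^ (k + 1))
    (hz8 : |(∑' n, wt k (8 * δ) n) - (8 * δ) ^ (-((k : ℝ) + 1))| ≤ CB ^ (k + 1))
    (hz7 : |(∑' n, wt k (δ / 7) n) - (δ / 7) ^ (-((k : ℝ) + 1))| ≤ CB ^ (k + 1))
    (hA : ∀ S : Finset (DirichletCharacter ℂ r), (∀ χ ∈ S, χ ≠ 1) →
      ∑ χ ∈ S, ‖Schi χ k δ‖ ≤ δ ^ (-((k : ℝ) + 1)) * (1 - (r : ℝ) ^ (-C))) :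
    (r : ℝ) ^ (-C) / 4 * (δ⁻¹) ^ (k + 1) ≤ r * ((δ⁻¹) ^ k *
      ∑ n ∈ (Finset.Ioc ⌈Real.exp (U / 8)⌉₊ ⌊Real.exp (7 * U)⌋₊).filter (fun n => n % r = 1),
          ArithmeticFunction.vonMangoldt n / n) := by
  have hr1 : (1 : ℝ) < r := by exact_mod_cast hr.one_lt
  have hr0 : (0 : ℝ) < r := by linarith
  have hLL1 : 1 ≤ LL r := Vale.Agent.P319.Ev.IA.one_le_LL hr.one_lt.le
  obtain ⟨hZ, hZ8, hZ7, h2D⟩ := zeta_facts hCB hδ hδ16 hz hz8 hz7
  have hδs : δ * 16 ≤ 1 := by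
    have : δ * 16 ≤ δ * (16 * CB) := by nlinarith
    linarith
  have hD0 : 0 < (δ⁻¹) ^ (k + 1) := by positivity
  have hx0 : 0 < (r : ℝ) ^ (-C) := Real.rpow_pos_of_pos hr0 _
  have hx1 : (r : ℝ) ^ (-C) ≤ 1 := Real.rpow_le_one_of_one_le_of_nonpos hr1.le (by linarith)
  have hS1 := S1_lower' hr (k := k) (δ := δ)
    (E := (δ⁻¹) ^ (k + 1) * (1 - (r : ℝ) ^ (-C))) hδ hs
    (by
      intro S hS
      have := hA S hS
      rw [rpow_neg_succ hδ] at this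
      exact this)
  have hsp := split_sum r k ⌈Real.exp (U / 8)⌉₊ ⌊Real.exp (7 * U)⌋₊ hδ hs hs8 hs7
    (Real.exp (7 * U)) (Real.exp_pos _) (fun n hn => (Nat.lt_of_floor_lt hn).le)
  have hlow := low_bound (y0 := ((⌈Real.exp (U / 8)⌉₊ : ℕ) : ℝ)) (by positivity)
    (ceil_exp_le hU0) hUk hδ (by linarith)
  have hhigh := high_bound hkU
  have htails := tail_facts (tsum_nonneg fun n => wt_nonneg _ _ _)
    (tsum_nonneg fun n => wt_nonneg _ _ _) hsp hlow hhigh hZ8 hZ7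
  have hW : ∑ n ∈ (Finset.Ioc ⌈Real.exp (U / 8)⌉₊ ⌊Real.exp (7 * U)⌋₊).filter
        (fun n => n % r = 1), wt k δ n ≤
      (δ⁻¹) ^ k * ∑ n ∈ (Finset.Ioc ⌈Real.exp (U / 8)⌉₊ ⌊Real.exp (7 * U)⌋₊).filter
        (fun n => n % r = 1), ArithmeticFunction.vonMangoldt n / n := by
    rw [Finset.mul_sum]
    exact Finset.sum_le_sum fun n _ => wt_le k hδ n
  have hsmall := small_bound hr0 hr1 hC (show LL r = 1 + Real.log r from rfl) hLL1 hm
  have hφ : (r.totient : ℝ) ≤ r := by exact_mod_cast Nat.totient_le r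
  have h13 : (1 / 3 : ℝ) ^ (k + 1) ≤ (4 / 5) ^ (k + 1) :=
    pow_le_pow_left₀ (by norm_num) (by norm_num) _
  have h16b : (1 / 16 : ℝ) ^ (k + 1) ≤ (4 / 5) ^ (k + 1) :=
    pow_le_pow_left₀ (by norm_num) (by norm_num) _
  have h8b : (1 / 8 : ℝ) ^ (k + 1) ≤ (4 / 5) ^ (k + 1) :=
    pow_le_pow_left₀ (by norm_num) (by norm_num) _
  have hpos : 0 ≤ (r : ℝ) * (C * LL r * ((4 / 5) ^ (k + 1) * (δ⁻¹) ^ (k + 1))) := by positivity
  refine Vale.Agent.P319.Ev.QLC.final_arith (px := 1 - (r : ℝ) ^ (-C)) (x := (r : ℝ) ^ (-C)) hD0 hr0 hφ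
    (tsum_nonneg fun n => ?_) (le_trans ?_ hS1) hZ h2D
    (htails.trans (by linarith)) h13 h16b h8b (by linarith) hsmall
  · split_ifs
    · exact wt_nonneg _ _ _
    · exact le_refl _
  · rw [mul_comm ((δ⁻¹) ^ (k + 1)) (1 - (r : ℝ) ^ (-C))]
    linarith

/-- The sum of `Λ(n)/n` over `n ≡ 1` modulo `r` in the window is not too small. -/
lemma W_lower' (hIA : IA2Stmt) (hIB : IBStmt) : ∃ (C K : ℝ) (r₀ : ℕ), 1 ≤ C ∧ 1 ≤ K ∧
    ∀ r : ℕ, r.Prime → r₀ ≤ r → ∀ U : ℝ, K * LL r ^ 2 / lam r ≤ U →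
      (r : ℝ) ^ (-C) / r / 4 ≤
        ∑ n ∈ (Finset.Ioc ⌈Real.exp (U / 8)⌉₊ ⌊Real.exp (7 * U)⌋₊).filter (fun n => n % r = 1),
          ArithmeticFunction.vonMangoldt n / n := by
  obtain ⟨a0, ha0, hA⟩ := hIA
  obtain ⟨aB, CB, haB, hCB, hB⟩ := hIB
  obtain ⟨a, hapos, ha1, ha2, ha3⟩ : ∃ a : ℝ, 0 < a ∧ a ≤ a0 ∧ a ≤ aB / 8 ∧
      a ≤ 1 / (16 * CB) :=
    ⟨min a0 (min (aB / 8) (1 / (16 * CB))), lt_min ha0 (lt_min (by positivity) (by positivity)),
      min_le_left _ _, (min_le_right _ _).trans (min_le_left _ _),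
      (min_le_right _ _).trans (min_le_right _ _)⟩
  obtain ⟨C, r₀, hC, hA⟩ := hA a hapos ha1
  have ha16 : a * (16 * CB) ≤ 1 := by rwa [le_div_iff₀ (by positivity)] at ha3
  have ha1' : a ≤ 1 := by
    have : a * 1 ≤ a * (16 * CB) := by
      apply mul_le_mul_of_nonneg_left _ hapos.le
      linarith
    linarith
  have hK : (1 : ℝ) ≤ 5 * (202 + 5 * C) / a := by
    rw [le_div_iff₀ hapos]; linarith
  refine ⟨C, 5 * (202 + 5 * C) / a, r₀, hC, hK, ?_⟩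
  intro r hr hr₀ U hU
  have hr1 : (1 : ℝ) < r := by exact_mod_cast hr.one_lt
  have hr0 : (0 : ℝ) < r := by linarith
  have hLL1 : 1 ≤ LL r := Vale.Agent.P319.Ev.IA.one_le_LL hr.one_lt.le
  have hLL0 : 0 < LL r := by linarith
  have hlam1 : 1 ≤ lam r := one_le_lam hr.one_lt.le
  have hlam0 : 0 < lam r := by linarith
  have hlamLL : lam r ≤ LL r := lam_le_LL hr.one_lt.le
  set δ : ℝ := a * lam r / LL r with hδdef
  have hδ : 0 < δ := by positivity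
  have hδa : δ ≤ a := by
    rw [hδdef, div_le_iff₀ hLL0]
    exact mul_le_mul_of_nonneg_left hlamLL hapos.le
  have hU0 : 0 < U := lt_of_lt_of_le (by positivity) hU
  have hkU : (⌊U * δ⌋₊ : ℝ) ≤ U * δ := Nat.floor_le (by positivity)
  have hUk : U * δ < ⌊U * δ⌋₊ + 1 := Nat.lt_floor_add_one _
  have hδ16 : δ * (16 * CB) ≤ 1 :=
    le_trans (mul_le_mul_of_nonneg_right hδa (by positivity)) ha16
  have hUδ : 5 * (202 + 5 * C) * LL r ≤ U * δ := by
    have h1 : 5 * (202 + 5 * C) / a * LL r ^ 2 / lam r * δ = 5 * (202 + 5 * C) * LL r := by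
      rw [hδdef]; field_simp
    have h2 : 5 * (202 + 5 * C) / a * LL r ^ 2 / lam r * δ ≤ U * δ :=
      mul_le_mul_of_nonneg_right hU hδ.le
    linarith
  have hm : 5 * (202 + 5 * C) * LL r ≤ ((⌊U * δ⌋₊ + 1 : ℕ) : ℝ) := by
    push_cast
    linarith
  have hk : C * LL r ≤ (⌊U * δ⌋₊ : ℝ) := by
    have h1 : C * LL r + 1 ≤ 5 * (202 + 5 * C) * LL r := by nlinarith
    linarith
  have hB1 := hB δ hδ (by linarith) ⌊U * δ⌋₊
  have hB8 := hB (8 * δ) (by positivity) (by linarith) ⌊U * δ⌋₊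
  have hB7 := hB (δ / 7) (by positivity) (by linarith) ⌊U * δ⌋₊
  have := core' hr hC hCB hU0.le hδ hδ16 hkU hUk hm hB1.1 hB8.1 hB7.1 hB1.2 hB8.2 hB7.2
    (hA r hr hr₀ _ hk)
  exact core_end hr0 (by positivity) hδ (by linarith) this

/-- the end of the proof: from a lower bound for the window to the primes in a dyadic interval -/
lemma endgame {r : ℕ} (hr : r.Prime) {η0 η C U : ℝ} (hη : 0 < η) (hη2 : η ≤ 1 / 2) (hηη : η ≤ η0)
    (hC : 1 ≤ C) (hU2 : 50000 / η ^ 2 ≤ U) (hU3 : 16 * (C + 1) / η * (1 + Real.log r) ≤ U)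
    (hlow : (r : ℝ) ^ (-C) / r / 4 ≤
        ∑ n ∈ (Finset.Ioc ⌈Real.exp (U / 8)⌉₊ ⌊Real.exp (7 * U)⌋₊).filter (fun n => n % r = 1),
          ArithmeticFunction.vonMangoldt n / n) :
    ∃ y : ℕ, Real.exp (U / 8) ≤ y ∧ (y : ℝ) ≤ Real.exp (7 * U) ∧
      (y : ℝ) ^ (1 - η0) ≤ ((Finset.Ioc y (2 * y)).filter fun l => l.Prime ∧ l % r = 1).card := by
  by_contra hcon
  push Not at hcon
  have hr1 : (1 : ℝ) < r := by exact_mod_cast hr.one_lt
  have hr0 : (0 : ℝ) < r := by linarith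
  have hlog : 0 < Real.log r := Real.log_pos hr1
  have hLL1 : 1 ≤ 1 + Real.log r := by linarith
  have hA1 : 0 < 50000 / η ^ 2 := by positivity
  have hU0 : 0 < U := lt_of_lt_of_le hA1 hU2
  have hbeat := exp_beats hη hη2 hC hLL1 hU2 hU3
  -- the dyadic decomposition
  have hy01 : 1 ≤ ⌈Real.exp (U / 8)⌉₊ := Nat.one_le_ceil_iff.mpr (Real.exp_pos _)
  have hex : ∃ J : ℕ, ⌊Real.exp (7 * U)⌋₊ ≤ 2 ^ J * ⌈Real.exp (U / 8)⌉₊ :=
    ⟨⌊Real.exp (7 * U)⌋₊, le_trans (Nat.lt_two_pow_self).le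
      (Nat.le_mul_of_pos_right _ (by omega))⟩
  obtain ⟨J, hJ, hJmin⟩ : ∃ J : ℕ, ⌊Real.exp (7 * U)⌋₊ ≤ 2 ^ J * ⌈Real.exp (U / 8)⌉₊ ∧
      ∀ j < J, 2 ^ j * ⌈Real.exp (U / 8)⌉₊ < ⌊Real.exp (7 * U)⌋₊ :=
    ⟨Nat.find hex, Nat.find_spec hex, fun j hj => Nat.lt_of_not_le (Nat.find_min hex hj)⟩
  have hblock : ∀ j ∈ Finset.range J,
      ∑ n ∈ (Finset.Ioc (2 ^ j * ⌈Real.exp (U / 8)⌉₊) (2 * (2 ^ j * ⌈Real.exp (U / 8)⌉₊))).filter
        (fun n => n % r = 1), ArithmeticFunction.vonMangoldt n / n ≤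
      4 * (7 * U + 1) * Real.exp (-(η * U / 8)) := by
    intro j hj
    have hj' := hJmin j (Finset.mem_range.mp hj)
    set y : ℕ := 2 ^ j * ⌈Real.exp (U / 8)⌉₊ with hy
    have hy1 : 1 ≤ y := Nat.mul_pos (by positivity) hy01
    have hylow : Real.exp (U / 8) ≤ y := by
      calc Real.exp (U / 8) ≤ (⌈Real.exp (U / 8)⌉₊ : ℝ) := Nat.le_ceil _
        _ ≤ y := by
          rw [hy]; exact_mod_cast Nat.le_mul_of_pos_left _ (by positivity)
    have hyup : (y : ℝ) ≤ Real.exp (7 * U) :=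
      le_trans (by exact_mod_cast hj'.le) (Nat.floor_le (Real.exp_pos _).le)
    have hy1' : (1 : ℝ) ≤ y := by exact_mod_cast hy1
    have hN := (hcon y hylow hyup).le
    have hN' : (((Finset.Ioc y (2 * y)).filter fun l => l.Prime ∧ l % r = 1).card : ℝ) ≤
        (y : ℝ) ^ (1 - η) := hN.trans (Real.rpow_le_rpow_of_exponent_le hy1' (by linarith))
    refine (block_le' r y hy1 hη2 hN').trans ?_
    have hl : Real.log (2 * y) ≤ 7 * U + 1 := by
      rw [Real.log_mul (by norm_num) (by linarith)]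
      have := Real.log_le_log (by linarith) hyup
      rw [Real.log_exp] at this
      have := Real.log_two_lt_d9
      linarith
    have hl0 : 0 ≤ Real.log (2 * y) := Real.log_nonneg (by linarith)
    have hp : (y : ℝ) ^ (-η) ≤ Real.exp (-(η * U / 8)) := by
      calc (y : ℝ) ^ (-η) ≤ (Real.exp (U / 8)) ^ (-η) :=
            Real.rpow_le_rpow_of_nonpos (Real.exp_pos _) hylow (by linarith)
        _ = _ := by rw [← Real.exp_mul]; congr 1; ring
    gcongr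
  have hJU : (J : ℝ) ≤ 1 + 11 * U := by
    rcases Nat.eq_zero_or_pos J with h | h
    · rw [h]; push_cast; linarith
    · have h1 := hJmin (J - 1) (by omega)
      have h2 : (2 : ℝ) ^ (J - 1) ≤ Real.exp (7 * U) := by
        calc (2 : ℝ) ^ (J - 1) ≤ ((2 ^ (J - 1) * ⌈Real.exp (U / 8)⌉₊ : ℕ) : ℝ) := by
              exact_mod_cast Nat.le_mul_of_pos_right _ (by omega)
          _ ≤ (⌊Real.exp (7 * U)⌋₊ : ℝ) := by exact_mod_cast h1.le
          _ ≤ _ := Nat.floor_le (Real.exp_pos _).le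
      have h3 := Real.log_le_log (by positivity) h2
      rw [Real.log_exp, Real.log_pow] at h3
      have h4 : ((J - 1 : ℕ) : ℝ) = (J : ℝ) - 1 := by
        rw [Nat.cast_sub (by omega)]; push_cast; ring
      rw [h4] at h3
      have h5 := Real.log_two_gt_d9
      have h6 : (0 : ℝ) ≤ (J : ℝ) - 1 := by
        have : (1 : ℝ) ≤ J := by exact_mod_cast h
        linarith
      nlinarith
  have hup : ∑ n ∈ (Finset.Ioc ⌈Real.exp (U / 8)⌉₊ ⌊Real.exp (7 * U)⌋₊).filter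
        (fun n => n % r = 1), ArithmeticFunction.vonMangoldt n / n ≤
      (1 + 11 * U) * (4 * (7 * U + 1) * Real.exp (-(η * U / 8))) := by
    calc ∑ n ∈ (Finset.Ioc ⌈Real.exp (U / 8)⌉₊ ⌊Real.exp (7 * U)⌋₊).filter
          (fun n => n % r = 1), ArithmeticFunction.vonMangoldt n / n
        ≤ ∑ n ∈ (Finset.Ioc ⌈Real.exp (U / 8)⌉₊ (2 ^ J * ⌈Real.exp (U / 8)⌉₊)).filter
          (fun n => n % r = 1), ArithmeticFunction.vonMangoldt n / n := by
          apply Finset.sum_le_sum_of_subset_of_nonneg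
          · apply Finset.filter_subset_filter
            exact Finset.Ioc_subset_Ioc_right hJ
          · intro n _ _; exact div_nonneg vonMangoldt_nonneg (by positivity)
      _ = ∑ j ∈ Finset.range J, _ := sum_dyadic r _ J
      _ ≤ ∑ j ∈ Finset.range J, 4 * (7 * U + 1) * Real.exp (-(η * U / 8)) :=
          Finset.sum_le_sum hblock
      _ = J * (4 * (7 * U + 1) * Real.exp (-(η * U / 8))) := by
          rw [Finset.sum_const, Finset.card_range, nsmul_eq_mul]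
      _ ≤ _ := by gcongr
  have hx : Real.exp (-((C + 1) * (1 + Real.log r))) / 4 ≤ (r : ℝ) ^ (-C) / r / 4 := by
    have : (r : ℝ) ^ (-C) / r = Real.exp (-((C + 1) * Real.log r)) := by
      rw [Real.rpow_def_of_pos hr0]
      nth_rewrite 2 [← Real.exp_log hr0]
      rw [← Real.exp_sub]; congr 1; ring
    rw [this]
    apply div_le_div_of_nonneg_right _ (by norm_num)
    apply Real.exp_le_exp.mpr
    nlinarith
  linarith

/-- **Package QL2-Q.** -/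
theorem ql2 (hIA : IA2Stmt) (hIB : IBStmt) (hQL : QLStmt) : QL2Stmt := by
  obtain ⟨C, K, r₀, hC, hK, hW⟩ := W_lower' hIA hIB
  intro η0 hη0
  obtain ⟨C₁, hC₁, hold⟩ := hQL η0 hη0
  obtain ⟨η, hη, hη2, hηη⟩ : ∃ η : ℝ, 0 < η ∧ η ≤ 1 / 2 ∧ η ≤ η0 :=
    ⟨min η0 (1 / 2), lt_min hη0 (by norm_num), min_le_right _ _, min_le_left _ _⟩
  have hlog0 : 0 ≤ Real.log ((r₀ : ℝ) + 1) :=
    Real.log_nonneg (by have : (0 : ℝ) ≤ r₀ := Nat.cast_nonneg _; linarith)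
  refine ⟨K + 50000 / η ^ 2 + 16 * (C + 1) / η + C₁ * (1 + Real.log ((r₀ : ℝ) + 1)),
    by positivity, ?_⟩
  intro r hr U hU
  have hr1 : (1 : ℝ) < r := by exact_mod_cast hr.one_lt
  have hr0 : (0 : ℝ) < r := by linarith
  have hLL1 : 1 ≤ LL r := Vale.Agent.P319.Ev.IA.one_le_LL hr.one_lt.le
  have hLL0 : 0 < LL r := by linarith
  have hlam1 : 1 ≤ lam r := one_le_lam hr.one_lt.le
  have hlam0 : 0 < lam r := by linarith
  have hlamLL : lam r ≤ LL r := lam_le_LL hr.one_lt.le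
  have hA1 : 0 < 50000 / η ^ 2 := by positivity
  have hA2 : 0 < 16 * (C + 1) / η := by positivity
  have hA3 : 0 ≤ C₁ * (1 + Real.log ((r₀ : ℝ) + 1)) := by positivity
  have hq : LL r ≤ LL r ^ 2 / lam r := by
    rw [le_div_iff₀ hlam0]
    nlinarith
  have hq0 : 0 < LL r ^ 2 / lam r := by positivity
  rw [mul_div_assoc] at hU
  rcases Nat.lt_or_ge r r₀ with hlt | hge
  · refine hold r hr U (le_trans ?_ hU)
    have h1 : lam r ≤ 1 + Real.log ((r₀ : ℝ) + 1) := by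
      refine hlamLL.trans ?_
      have : Real.log r ≤ Real.log ((r₀ : ℝ) + 1) := by
        apply Real.log_le_log hr0
        have : (r : ℝ) < r₀ := by exact_mod_cast hlt
        linarith
      unfold LL
      linarith
    have h2 : LL r ^ 2 = lam r * (LL r ^ 2 / lam r) := by field_simp
    calc C₁ * (1 + Real.log r) ^ 2 = C₁ * (lam r * (LL r ^ 2 / lam r)) := by
          rw [← h2]; rfl
      _ ≤ C₁ * ((1 + Real.log ((r₀ : ℝ) + 1)) * (LL r ^ 2 / lam r)) := by gcongr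
      _ = (C₁ * (1 + Real.log ((r₀ : ℝ) + 1))) * (LL r ^ 2 / lam r) := by ring
      _ ≤ _ := by
        apply mul_le_mul_of_nonneg_right _ hq0.le
        linarith
  · have hU1 : K * LL r ^ 2 / lam r ≤ U := by
      refine le_trans ?_ hU
      rw [mul_div_assoc]
      apply mul_le_mul_of_nonneg_right _ hq0.le
      linarith
    have hU2 : 50000 / η ^ 2 ≤ U := by
      refine le_trans ?_ hU
      calc 50000 / η ^ 2 = 50000 / η ^ 2 * 1 := (mul_one _).symm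
        _ ≤ _ := by
          apply mul_le_mul (by linarith) (by linarith) (by norm_num) (by positivity)
    have hU3 : 16 * (C + 1) / η * (1 + Real.log r) ≤ U := by
      refine le_trans ?_ hU
      change 16 * (C + 1) / η * LL r ≤ _
      apply mul_le_mul (by linarith) hq (by positivity) (by positivity)
    exact endgame hr hη hη2 hηη hC hU2 hU3 (hW r hr hge U hU1)

end Vale.Agent.P319.SC.QL.H660
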